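import Crest.Agent.X212.Hm4.Idle
import Crest.Agent.X212.Hel40.Stp
import Crest.Agent.X212.Hl33.Conn
import Crest.Agent.X212.Box46.Box
import Crest.Agent.X212.Box46.Trk
import Crest.Agent.X212.Sm10.Hd2b
import Crest.Agent.X212.Psh23.Main
import Crest.Agent.X212.Lad50.Gen

/-!
# X212/Hm4/Main (helper4): HEL-MAIN, the induction along the hierarchy
-/

set_option autoImplicit false
set_option linter.unusedSectionVars false

open Set Filter Topology Function Real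
open scoped ContDiff Manifold
open Crest.Agent.X212.Dr59 Crest.Agent.X212.Int54 Crest.Agent.X212.Cyl58
open Crest.Agent.X212.Sep15 (EE IR CM Box slab px Rg)
open Crest.Agent.X212.Bb31 (Fm)
open Crest.Agent.X212.Flo26 (SmV fl)
open Crest.Agent.X212.H7 (FT Fib)
open Crest.Agent.X212.Line51 (ang)
open Crest.Agent.X212.Hel40

noncomputable section

namespace Crest.Agent.X212.Hm4

variable {Y : CM 3} {R : CM 2} {o : Fm 3 Y} {v : Vf Y} {Φ : Y → Circle} {M N U K : Set Y}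
  {δ a : ℝ} {E : ℂ × ℝ → Y} {oR : Fm 2 R} {b : R × ℝ → Y}

theorem ch_true (hv : SmV (𝓡 3) v) {n : ℕ} (h : Ch v false n M N) : Ch v true n M N := by
  induction n generalizing M with
  | zero => exact h
  | succ n ih =>
    obtain ⟨M', S, h1, h2⟩ := h
    exact ⟨M', S, Psh23.push Y v M M' S hv h1, ih h2⟩

theorem st_conn (h : St o v Φ M U K δ a E) (ha : 0 < a) : IsConnected (PP Φ M) :=
  ⟨⟨_, (h.free 0 (.inl ⟨0, by simpa using h.hcol.pos⟩) 0 (by simpa using ha)).1⟩, h.conn⟩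

theorem fib_of (h : Bas o v Φ M) (hb : Bx o v Φ oR b) : Fib Φ b := ⟨h.smΦ, hb.box, hb.rg, hb.ang⟩

/-- the top of the tower -/
theorem ft_base (h : St o v Φ ∅ U K δ 10 E) : FT Y univ (ang (𝓡 3) Φ) := by
  have hB := h.bas
  obtain ⟨R, oR, b, hb⟩ := Box46.box Y o v Φ hB.ori hB.smv hB.smΦ fun y _ => hB.pos y id
  obtain ⟨S, hS, -⟩ := exists_idle (n := 0) rfl hB h.conn
  have hc := (Hl33.connStmt Box46.trk Y R o v Φ ∅ ∅ oR b S hB hb hS
    (st_conn h (by norm_num))).isPreconnected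
  have ha : ∀ i : Fin 3, |(2 * ((((i : ℕ) : ℤ) - 1 : ℤ) : ℝ) + 1) * π| < 10 := fun i => by
    have := pi_lt_d2
    have := pi_pos
    rw [abs_lt]
    fin_cases i <;> constructor <;> norm_num <;> linarith
  choose e he he' using fun i : Fin 3 => Box46.sheet Y R o v Φ oR b δ 10 E (((i : ℕ) : ℤ) - 1) hB.smv
    hB.smΦ hb h.hcol (ha i)
  refine FT.base (fib_of hB hb) (fun p k => (hB.pos p id).ne' ?_) ⟨hc⟩ hb.ori
    ((Sm10.hd2Stmt R oR hb.ori).2.1 e δ he (fun i j hij => disjoint_left.2 ?_) hc)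
  · rw [rt, io_inj ((ang_eq Φ p).symm.trans (k.trans (map_zero _).symm))]; rfl
  · rintro _ ⟨z, hz, rfl⟩ ⟨w, hw, k⟩
    have h1 := he' i z hz 0 (by simpa using ha i)
    have h2 := he' j w hw 0 (by simpa using ha j)
    rw [arctan_zero, mul_zero, add_zero] at h1 h2
    have h3 := ((h.hcol.eq (z, _) (w, _) hz (ha i) hw (ha j)).1 (h1.symm.trans (k ▸ h2))).1
    have h4 := mul_right_cancel₀ pi_pos.ne' h3
    have h5 : (((i : ℕ) : ℤ) - 1 : ℤ) = ((j : ℕ) : ℤ) - 1 := by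
      exact_mod_cast (by linarith : ((((i : ℕ) : ℤ) - 1 : ℤ) : ℝ) = (((j : ℕ) : ℤ) - 1 : ℤ))
    exact hij (Fin.ext (by omega))

theorem ft_ind (hS : StepStmt) (hT : TfStmt) (n : ℕ) : ∀ (Y : CM 3) (o : Fm 3 Y) (v : Vf Y)
    (Φ : Y → Circle) (M U K : Set Y) (δ : ℝ) (E : ℂ × ℝ → Y), St o v Φ M U K δ 10 E →
    Hi v true n M → ∃ U', U ⊆ U' ∧ FT Y U' (ang (𝓡 3) Φ) := by
  induction n with
  | zero =>
    intro Y o v Φ M U K δ E h (h0 : M = ∅)
    subst h0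
    exact ⟨univ, subset_univ _, ft_base h⟩
  | succ n ih =>
    rintro Y o v Φ M U K δ E h ⟨M', S, h1, h2⟩
    obtain ⟨Y', o', v', Φ', M'', U', K', δ', E', R, oR, b, b', g, G, a1, a2, a3⟩ :=
      hS Y o v Φ M M' U K δ 10 E S n h h1 h2 (.inl rfl)
    obtain ⟨U'', b1, b2⟩ := ih Y' o' v' Φ' M'' U' K' δ' E' a1 a2
    exact ⟨_, subset_union_left, hT Y Y' R _ Φ U'' Φ' oR b b' g G (a3.mono b1) b2⟩

/-- **MAIN** -/
theorem main (hS : StepStmt) (hT : TfStmt) : MainStmt := by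
  rintro Y o Φ ⟨v, M, n, V, w, L, hB, hP, hH, hC⟩
  have hH' := ch_true hB.smv hH
  obtain ⟨δ, E, h1, h2⟩ := Lad50.Gn.genus Box46.box (fun Y R o v Φ M oR b a c d =>
    Hl33.footStmt Box46.trk Y R o v Φ M oR b 1 a c (.inl rfl) d) Y o v Φ M V w L hB hC
  have st : St o v Φ M ∅ ∅ δ 4 E := ⟨hB, isCompact_empty, empty_subset _, hP, by rwa [sdiff_empty],
    empty_subset _, h1, fun z hz k hk => by
      have h3 : |(k : ℝ)| < 1 := by
        rw [abs_mul, abs_of_pos two_pi_pos] at hk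
        nlinarith [two_le_pi, abs_nonneg (k : ℝ)]
      obtain rfl : k = 0 := Int.abs_lt_one_iff.1 (by exact_mod_cast h3)
      simpa using h2 z hz⟩
  obtain ⟨S, s1, s2⟩ := exists_idle hH' hB hP
  obtain ⟨Y', o', v', Φ', M'', U', K', δ', E', R', oR', b₀, b', g, G, a1, a2, a3⟩ :=
    hS Y o v Φ M M ∅ ∅ δ 4 E S n st s1 hH' (.inr ⟨rfl, rfl, s2⟩)
  obtain ⟨U'', b1, b2⟩ := ft_ind hS hT n Y' o' v' Φ' M'' U' K' δ' E' a1 a2
  obtain ⟨R, oR, b, hb⟩ := Box46.box Y o v Φ hB.ori hB.smv hB.smΦ fun y k =>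
    hB.pos y fun e => k (hB.one y e)
  refine ⟨R, b, _, connectedSpace_iff_univ.2 (Hl33.connStmt Box46.trk Y R o v Φ M M oR b S hB hb s1
    (st_conn st (by norm_num))), fib_of hB hb, ?_, hT Y Y' R' _ Φ U'' Φ' oR' b₀ b' g G (a3.mono b1) b2⟩
  rintro _ ⟨p, hp, rfl⟩
  exact .inr (by rw [Mid, mem_ofPred_eq, hb.ang]; exact cay_re_neg.2 hp.2)

end Crest.Agent.X212.Hm4
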