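import Crest.Agent.X212.Hel40.Ang
import Crest.Agent.X212.Hl33.Trans

/-!
# X212/Hm4/Idle (helper4): the idle stage of a hierarchy
-/

set_option autoImplicit false
set_option linter.unusedSectionVars false

open Set Filter Topology Function Real
open scoped ContDiff Manifold
open Crest.Agent.X212.Dr59 Crest.Agent.X212.Cyl58
open Crest.Agent.X212.Sep15 (EE IR CM Box slab px Rg)
open Crest.Agent.X212.Bb31 (Fm)
open Crest.Agent.X212.Flo26 (SmV fl)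
open Crest.Agent.X212.Hel40

noncomputable section

namespace Crest.Agent.X212.Hm4

variable {Y : CM 3} {o : Fm 3 Y} {v : Vf Y} {Φ : Y → Circle} {M M' O : Set Y} {σ r ρ : ℝ}
  {p m : Y → ℝ}

/-- colours seen in the direction `σ`: `p` grows, `m` decays -/
structure Dir (v : Vf Y) (M O : Set Y) (σ r : ℝ) (p m : Y → ℝ) : Prop where
  sg : σ = 1 ∨ σ = -1
  op : IsOpen O
  cp : ContinuousOn p O
  cm : ContinuousOn m O
  p0 : ∀ y ∈ O, 0 ≤ p y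
  m0 : ∀ y ∈ O, 0 ≤ m y
  meq : ∀ y, y ∈ M ↔ y ∈ O ∧ p y = 0 ∧ m y = 0
  cpt : IsCompact {y | y ∈ O ∧ p y ≤ r ∧ m y ≤ r}
  mono : ∀ y a b, a ≤ b → (∀ t ∈ Icc a b, fl v (σ * t) y ∈ O) →
    p (fl v (σ * a) y) ≤ p (fl v (σ * b) y) ∧ m (fl v (σ * b) y) ≤ m (fl v (σ * a) y)

theorem mono1 (S : Pre v M M') (hv : SmV (𝓡 3) v) (y : Y) {a b : ℝ} (h : a ≤ b)
    (hO : ∀ t ∈ Icc a b, fl v t y ∈ S.O) :
    S.tp (fl v a y) ≤ S.tp (fl v b y) ∧ S.tm (fl v a y) ≤ S.tm (fl v b y) :=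
  ⟨le_of_dr hv h fun t ht => ⟨(S.sp.contMDiffAt (S.op.mem_nhds (hO t ht))).mdifferentiableAt
    (by simp), S.pv _ (hO t ht)⟩, le_of_dr hv h fun t ht =>
      ⟨(S.sm.contMDiffAt (S.op.mem_nhds (hO t ht))).mdifferentiableAt (by simp), S.mv _ (hO t ht)⟩⟩

theorem dir_up (S : Pre v M M') (hv : SmV (𝓡 3) v) :
    Dir v M S.O 1 S.r S.tp fun y => -S.tm y where
  sg := .inl rfl
  op := S.op
  cp := S.sp.continuousOn
  cm := S.sm.continuousOn.neg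
  p0 := S.p0
  m0 := fun y hy => neg_nonneg.2 (S.m0 y hy)
  meq := fun y => by rw [S.meq, neg_eq_zero]
  cpt := by simpa only [neg_le] using S.cpt
  mono := fun y a b h hO => by
    simp only [one_mul] at hO ⊢
    exact ⟨(mono1 S hv y h hO).1, neg_le_neg (mono1 S hv y h hO).2⟩

theorem dir_dn (S : Pre v M M') (hv : SmV (𝓡 3) v) :
    Dir v M S.O (-1) S.r (fun y => -S.tm y) S.tp where
  sg := .inr rfl
  op := S.op
  cp := S.sm.continuousOn.neg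
  cm := S.sp.continuousOn
  p0 := fun y hy => neg_nonneg.2 (S.m0 y hy)
  m0 := S.p0
  meq := fun y => by rw [S.meq, neg_eq_zero, and_comm (a := S.tp y = 0)]
  cpt := by simpa only [neg_le, and_comm (a := S.tp _ ≤ S.r)] using S.cpt
  mono := fun y a b h hO => by
    have := mono1 S hv y (a := -1 * b) (b := -1 * a) (by linarith) fun t ht => by
      simpa using hO (-t) ⟨by linarith [ht.2], by linarith [ht.1]⟩
    exact ⟨neg_le_neg this.2, this.1⟩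

theorem uIcc_sg (hσ : σ = 1 ∨ σ = -1) {s t : ℝ} (hs : 0 ≤ s) (ht : t ∈ uIcc 0 (σ * s)) :
    ∃ t' ∈ Icc 0 s, t = σ * t' := by
  rcases hσ with rfl | rfl
  · rw [one_mul, uIcc_of_le hs] at ht; exact ⟨t, ht, (one_mul t).symm⟩
  · rw [uIcc_of_ge (by linarith)] at ht
    exact ⟨-t, ⟨by linarith [ht.2], by linarith [ht.1]⟩, by ring⟩

theorem Dir.sep (h : Dir v M O σ r p m) {T : Set (ℝ × ℝ)} (hT : IsClosed T)
    (hr : ∀ q ∈ T, q.1 ≤ r ∧ q.2 ≤ r) : IsCompact {y | y ∈ O ∧ (p y, m y) ∈ T} := by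
  refine h.cpt.of_isClosed_subset ?_ fun y hy => ⟨hy.1, hr _ hy.2⟩
  convert ((h.cp.prodMk h.cm).mono fun y hy => hy.1).preimage_isClosed_of_isClosed h.cpt.isClosed hT
    using 1
  ext y
  exact ⟨fun hy => ⟨⟨hy.1, hr _ hy.2⟩, hy.2⟩, fun hy => ⟨hy.1.1, hy.2⟩⟩

/-- the orbit of a point of the middle surface meets the free set -/
theorem Dir.free (h : Dir v M O σ r p m) (hB : Bas o v Φ M) (hr : ρ ≤ r)
    (hΦ : ∀ y ∈ O, p y < ρ → m y < ρ → (Φ y : ℂ) ≠ -1) {z : Y} (hz : z ∈ PP Φ M) (h1 : z ∈ O)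
    (h2 : p z = 0) (h3 : m z < ρ) (hρ : 0 < ρ) : ∃ s ≥ 0, (∀ t ∈ Icc 0 s, fl v (σ * t) z ∈ O ∧
      p (fl v (σ * t) z) < ρ ∧ m (fl v (σ * t) z) < ρ) ∧ 0 < p (fl v (σ * s) z) ∧
      0 < m (fl v (σ * s) z) := by
  by_contra hn
  push Not at hn
  have hv := hB.smv
  have hc : Continuous fun t => fl v (σ * t) z := fl_cont' hv (by fun_prop) continuous_const
  have hC := h.sep (T := {0} ×ˢ Iic (m z)) (isClosed_singleton.prod isClosed_Iic)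
    fun q hq => ⟨(show q.1 = 0 from hq.1) ▸ hρ.le.trans hr, le_trans hq.2 (h3.le.trans hr)⟩
  set C := {y | y ∈ O ∧ (p y, m y) ∈ ({0} : Set ℝ) ×ˢ Iic (m z)}
  have CG : ∀ y ∈ C, y ∈ O ∧ p y < ρ ∧ m y < ρ := fun y hy =>
    ⟨hy.1, (show p y = 0 from hy.2.1) ▸ hρ, lt_of_le_of_lt hy.2.2 h3⟩
  have ne : ∀ s ≥ 0, (∀ t ∈ Icc 0 s, fl v (σ * t) z ∈ C) → ∀ t ∈ uIcc 0 (σ * s),
      (Φ (fl v t z) : ℂ) ≠ -1 := fun s hs k t ht => by
    obtain ⟨t', a1, rfl⟩ := uIcc_sg h.sg hs ht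
    exact hΦ _ (CG _ (k t' a1)).1 (CG _ (k t' a1)).2.1 (CG _ (k t' a1)).2.2
  have all : ∀ s ≥ 0, fl v (σ * s) z ∈ C := by
    intro b hb
    refine (hC.isClosed.preimage hc).inter isClosed_Icc
      |>.Icc_subset_of_forall_mem_nhdsGT_of_Icc_subset (s := (fun t => fl v (σ * t) z) ⁻¹' C)
      (a := 0) (b := b) ?_ (fun s hs k => ?_) (right_mem_Icc.2 hb)
    · simp only [mem_preimage, mul_zero, Flo26.fl_zero hv]
      exact ⟨h1, h2, le_refl (m z)⟩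
    have k0 := k (right_mem_Icc.2 hs.1)
    have k1 : 0 < m (fl v (σ * s) z) := (h.m0 _ k0.1).lt_of_ne fun e =>
      hB.col_notMem Subset.rfl (col_fl hv (mem_col hv hz hz.1) (ne s hs.1 k))
        ((h.meq _).2 ⟨k0.1, k0.2.1, e.symm⟩)
    have k2 : ∀ᶠ t in 𝓝 s, fl v (σ * t) z ∈ O ∩ (fun y => (p y, m y)) ⁻¹' (Iio ρ ×ˢ Ioo 0 ρ) :=
      hc.continuousAt.eventually (((h.cp.prodMk h.cm).isOpen_inter_preimage h.op
        (isOpen_Iio.prod isOpen_Ioo)).mem_nhds ⟨k0.1, (CG _ k0).2.1, k1, (CG _ k0).2.2⟩)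
    obtain ⟨u, hu, k3⟩ := (nhdsGE_basis_Icc (a := s)).mem_iff.1 (mem_nhdsWithin_of_mem_nhds k2)
    filter_upwards [Ioc_mem_nhdsGT hu] with t ht
    have k4 : ∀ t' ∈ Icc 0 t, fl v (σ * t') z ∈ O ∧ p (fl v (σ * t') z) < ρ ∧
        m (fl v (σ * t') z) < ρ := fun t' ht' => by
      rcases le_total t' s with e | e
      · exact CG _ (k ⟨ht'.1, e⟩)
      · exact ⟨(k3 ⟨e, ht'.2.trans ht.2⟩).1, (k3 ⟨e, ht'.2.trans ht.2⟩).2.1,
          (k3 ⟨e, ht'.2.trans ht.2⟩).2.2.2⟩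
    have k5 := k3 ⟨ht.1.le, ht.2⟩
    have k6 := (h.mono z 0 t (hs.1.trans ht.1.le) fun t' ht' => (k4 t' ht').1).2
    rw [mul_zero, Flo26.fl_zero hv] at k6
    exact ⟨k5.1, le_antisymm (not_lt.1 fun e => (hn t (hs.1.trans ht.1.le) k4 e).not_gt k5.2.2.1)
      (h.p0 _ k5.1), k6⟩
  have z0 : Φ z = Circle.exp 0 := by rw [hz.1, Circle.exp_zero]
  have lt : ∀ s ≥ 0, σ * ag Φ v z (σ * s) < π := fun s hs => by
    have := abs_lt.1 (abs_ag_lt hv hB.smΦ z0 (by simpa using pi_pos)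
      (ne s hs fun t ht => all t ht.1))
    rcases h.sg with rfl | rfl <;> linarith [this.1, this.2]
  have pos := hB.strict h.sg hz.2 one_pos
  set α := σ * ag Φ v z (σ * 1)
  obtain ⟨s, hs, k⟩ := grow h.sg hv hB.smΦ (A := C ∩ {y | (Φ y : ℂ).re ≤ cos α})
    (hC.inter_right (isClosed_le (Complex.continuous_re.comp
      (Line51.contMDiff_coe.continuous.comp hB.smΦ.continuous)) continuous_const))
    (fun y hy => hB.pos y fun e => by
      have a1 := hy.2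
      have a2 : cos α < cos 0 := cos_lt_cos_of_nonneg_of_le_pi le_rfl (lt 1 zero_le_one).le pos
      rw [mem_ofPred_eq, hB.one y e, Circle.coe_one, Complex.one_re] at a1
      rw [cos_zero] at a2
      linarith) (y := fl v (σ * 1) z) (fun s hs => by
      rw [← fl_add hv, ← mul_add]
      refine ⟨all _ (by linarith), ?_⟩
      rw [mem_ofPred_eq, phi_fl' hv hB.smΦ z0, re_exp, zero_add]
      have a1 : α ≤ σ * ag Φ v z (σ * (s + 1)) := hB.mono h.sg z (by linarith)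
      have a2 := cos_le_cos_of_nonneg_of_le_pi pos.le (lt (s + 1) (by linarith)).le a1
      rcases h.sg with rfl | rfl
      · simpa using a2
      · simpa using a2) π
  have := lt (s + 1) (by linarith)
  rw [mul_add, ag_add hv hB.smΦ, mul_add] at this
  linarith

/-- the orbit of a free point near the plateau meets the middle surface -/
theorem Dir.foot (h : Dir v M O σ r p m) (hB : Bas o v Φ M) {W : Set Y}
    (hW : ∀ y ∈ W, y ∈ O ∧ p y ≤ r ∧ m y ≤ r) {y : Y} {η : ℝ}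
    (hs : ∀ T : ℝ, (∀ t ∈ uIcc 0 T, 1 - η ≤ (Φ (fl v t y) : ℂ).re) → fl v T y ∈ W)
    (h1 : 1 - η ≤ (Φ y : ℂ).re) (h2 : 0 < p y) (h3 : σ * ar (Φ y) ≤ 0) :
    ∃ s ≥ 0, fl v (σ * s) y ∈ PP Φ M ∧ ∀ t ∈ Icc 0 s, fl v (σ * t) y ∈ W := by
  have hv := hB.smv
  have seg : ∀ s ≥ 0, σ * (ar (Φ y) + ag Φ v y (σ * s)) ≤ 0 → ∀ t ∈ Icc 0 s,
      fl v (σ * t) y ∈ W ∧ p y ≤ p (fl v (σ * t) y) := by
    intro s _ k
    have a0 : ∀ t ∈ Icc 0 s, fl v (σ * t) y ∈ W := fun t ht => hs _ fun u hu => by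
      obtain ⟨u', a1, rfl⟩ := uIcc_sg h.sg ht.1 hu
      have a2 : σ * ag Φ v y (σ * u') ≤ σ * ag Φ v y (σ * s) := hB.mono h.sg y (a1.2.trans ht.2)
      have a3 := hB.mono h.sg y a1.1
      simp only [mul_zero, ag_zero] at a3
      rw [phi_fl' hv hB.smΦ (exp_ar _).symm, re_exp, ← cos_abs]
      rw [← exp_ar (Φ y), re_exp, ← cos_abs] at h1
      refine h1.trans (cos_le_cos_of_nonneg_of_le_pi (abs_nonneg _) (abs_ar_le _) ?_)
      rcases h.sg with rfl | rfl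
      · rw [abs_of_nonpos (by linarith), abs_of_nonpos (by linarith)]; linarith
      · rw [abs_of_nonneg (by linarith), abs_of_nonneg (by linarith)]; linarith
    refine fun t ht => ⟨a0 t ht, ?_⟩
    have := (h.mono y 0 t ht.1 fun u hu => (hW _ (a0 u ⟨hu.1, hu.2.trans ht.2⟩)).1).1
    rwa [mul_zero, Flo26.fl_zero hv] at this
  obtain ⟨s, hs0, k⟩ : ∃ s ≥ 0, 0 ≤ σ * (ar (Φ y) + ag Φ v y (σ * s)) := by
    by_contra hn
    push Not at hn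
    obtain ⟨s, a1, a2⟩ := grow h.sg hv hB.smΦ (h.sep (T := Icc (p y) r ×ˢ Iic r)
      (isClosed_Icc.prod isClosed_Iic) fun q hq => ⟨hq.1.2, hq.2⟩)
      (fun z hz => hB.pos z fun e => by linarith [hz.2.1.1, ((h.meq z).1 e).2.1]) (y := y)
      (fun s hs => by
        obtain ⟨b1, b2⟩ := seg s hs (hn s hs).le s (right_mem_Icc.2 hs)
        exact ⟨(hW _ b1).1, ⟨b2, (hW _ b1).2.1⟩, (hW _ b1).2.2⟩) (-(σ * ar (Φ y)))
    linarith [hn s a1]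
  obtain ⟨t, ht, e⟩ := intermediate_value_Icc hs0 (f := fun s => σ * (ar (Φ y) + ag Φ v y (σ * s)))
    (continuous_const.mul (continuous_const.add ((continuous_ag' hv hB.smΦ y).comp
      (continuous_const.mul continuous_id)))).continuousOn
    (⟨by simpa [ag_zero] using h3, k⟩ : (0 : ℝ) ∈ Icc _ _)
  have e' : ar (Φ y) + ag Φ v y (σ * t) = 0 := by
    rcases h.sg with rfl | rfl <;> linarith
  refine ⟨t, ht.1, ⟨by rw [phi_fl' hv hB.smΦ (exp_ar _).symm, e', Circle.exp_zero], fun a => ?_⟩,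
    fun u hu => (seg t ht.1 e.le u hu).1⟩
  linarith [(seg t ht.1 e.le t (right_mem_Icc.2 ht.1)).2, ((h.meq _).1 a).2.1]

/-- free points near the plateau are joined to a compact set of free points -/
theorem free_jn (S : Pre v M M') (hB : Bas o v Φ M) (hP : IsPreconnected (PP Φ M)) {W : Set Y}
    (hW : W ∈ 𝓝ˢ M) : ∃ W' ∈ 𝓝ˢ M, ∃ Q, IsCompact Q ∧
      Q ⊆ {y | y ∈ S.O ∧ y ∈ W ∧ 0 < S.tp y ∧ S.tm y < 0} ∧ ∀ y ∈ W', 0 < S.tp y → S.tm y < 0 →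
        ∃ q ∈ Q, JoinedIn {y | y ∈ S.O ∧ y ∈ W ∧ 0 < S.tp y ∧ S.tm y < 0} y q := by
  classical
  have hv := hB.smv
  have : LocallyPathConnectedSpace Y := ChartedSpace.locallyPathConnectedSpace (EE 3) Y
  have cΦ : Continuous fun y => (Φ y : ℂ) := Line51.contMDiff_coe.continuous.comp hB.smΦ.continuous
  have up := dir_up S hv
  have dn := dir_dn S hv
  obtain ⟨ρ, hρ, hr, hs⟩ := Hl33.pre_small S (W := interior W ∩ {y | (Φ y : ℂ) ≠ -1})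
    (isOpen_interior.inter (isOpen_ne_fun cΦ continuous_const)) fun y hy =>
      ⟨subset_interior_iff_mem_nhdsSet.2 hW hy, by rw [mem_ofPred_eq, hB.one y hy]; norm_num⟩
  let G : ℝ → Set Y := fun a => {y | y ∈ S.O ∧ S.tp y < a ∧ -S.tm y < a}
  have oG : ∀ a, IsOpen (G a) := fun a => (up.cp.prodMk up.cm).isOpen_inter_preimage S.op
    (isOpen_Iio.prod isOpen_Iio)
  have GB : ∀ a, G a ⊆ S.B a := fun a y hy => ⟨hy.1, hy.2.1.le, by linarith [hy.2.2]⟩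
  have MG : ∀ a > 0, G a ∈ 𝓝ˢ M := fun a ha => (oG a).mem_nhdsSet.2 fun y hy => by
    obtain ⟨a1, a2, a3⟩ := (S.meq y).1 hy
    exact ⟨a1, a2 ▸ ha, by rwa [a3, neg_zero]⟩
  let F : Set Y := {y | y ∈ S.O ∧ (S.tp y, -S.tm y) ∈ Ioo 0 ρ ×ˢ Ioo 0 ρ}
  have oF : IsOpen F := (up.cp.prodMk up.cm).isOpen_inter_preimage S.op (isOpen_Ioo.prod isOpen_Ioo)
  let J : Y → Y → Prop := fun z y => ∃ t, (∀ s ∈ uIcc 0 t, fl v s z ∈ G ρ) ∧ JoinedIn F (fl v t z) y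
  have Ja : ∀ z ∈ PP Φ M, z ∈ G ρ → ∃ y, J z y := by
    intro z hz hG
    have hΦ : ∀ y ∈ S.O, S.tp y < ρ → -S.tm y < ρ → (Φ y : ℂ) ≠ -1 := fun y a b c =>
      (hs (GB ρ ⟨a, b, c⟩)).2
    rcases (S.p0 z hG.1).eq_or_lt with h1 | h1
    · obtain ⟨s, a1, a2, a3, a4⟩ := up.free hB hr hΦ hz hG.1 h1.symm hG.2.2 hρ
      have a5 := a2 s (right_mem_Icc.2 a1)
      exact ⟨_, 1 * s, fun t ht => by obtain ⟨t', b, rfl⟩ := uIcc_sg up.sg a1 ht; exact a2 t' b,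
        JoinedIn.refl ⟨a5.1, ⟨a3, a5.2.1⟩, a4, a5.2.2⟩⟩
    rcases (S.m0 z hG.1).eq_or_lt with h2 | h2
    · obtain ⟨s, a1, a2, a3, a4⟩ := dn.free hB hr (fun y a b c => hΦ y a c b) hz hG.1
        (neg_eq_zero.2 h2) hG.2.1 hρ
      have a5 := a2 s (right_mem_Icc.2 a1)
      exact ⟨_, -1 * s, fun t ht => by
        obtain ⟨t', b, rfl⟩ := uIcc_sg dn.sg a1 ht
        exact ⟨(a2 t' b).1, (a2 t' b).2.2, (a2 t' b).2.1⟩,
        JoinedIn.refl ⟨a5.1, ⟨a4, a5.2.2⟩, a3, a5.2.1⟩⟩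
    · refine ⟨z, 0, fun t ht => ?_, ?_⟩
      · rw [uIcc_self, mem_singleton_iff] at ht
        rwa [ht, Flo26.fl_zero hv]
      · rw [Flo26.fl_zero hv]; exact JoinedIn.refl ⟨hG.1, ⟨h1, hG.2.1⟩, neg_pos.2 h2, hG.2.2⟩
  have Jb : ∀ z y y', J z y → J z y' → JoinedIn F y y' := by
    have key : ∀ z t t', t ≤ t' → (∀ s ∈ Icc t t', fl v s z ∈ G ρ) → fl v t z ∈ F → fl v t' z ∈ F →
        JoinedIn F (fl v t z) (fl v t' z) := fun z t t' h1 h2 h3 h4 => by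
      refine ((((convex_Icc t t').isPathConnected ⟨t, left_mem_Icc.2 h1⟩).image
        (fl_cont' hv continuous_id continuous_const)).joinedIn _ ⟨t, left_mem_Icc.2 h1, rfl⟩ _
        ⟨t', right_mem_Icc.2 h1, rfl⟩).mono ?_
      rintro _ ⟨s, hs, rfl⟩
      have a1 := (mono1 S hv z hs.1 fun u hu => (h2 u ⟨hu.1, hu.2.trans hs.2⟩).1).1
      have a2 := (mono1 S hv z hs.2 fun u hu => (h2 u ⟨hs.1.trans hu.1, hu.2⟩).1).2
      exact ⟨(h2 s hs).1, ⟨h3.2.1.1.trans_le a1, (h2 s hs).2.1⟩,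
        h4.2.2.1.trans_le (neg_le_neg a2), (h2 s hs).2.2⟩
    rintro z y y' ⟨t, h1, h2⟩ ⟨t', h3, h4⟩
    have h5 : ∀ s ∈ uIcc t t', fl v s z ∈ G ρ := fun s hs =>
      (uIcc_subset_uIcc_union_uIcc (b := 0) hs).elim (fun e => h1 s (uIcc_comm 0 t ▸ e)) (h3 s)
    rcases le_total t t' with e | e
    · rw [uIcc_of_le e] at h5
      exact h2.symm.trans ((key z t t' e h5 h2.source_mem h4.source_mem).trans h4)
    · rw [uIcc_of_ge e] at h5
      exact h2.symm.trans ((key z t' t e h5 h4.source_mem h2.source_mem).symm.trans h4)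
  have Jc : ∀ y, IsOpen {z | J z y} := fun y => isOpen_iff_mem_nhds.2 fun z ⟨t, h1, h2⟩ => by
    have a1 : ∀ᶠ z' in 𝓝 z, ∀ s ∈ uIcc 0 t, fl v s z' ∈ G ρ :=
      isCompact_uIcc.eventually_forall_of_forall_eventually fun s hs =>
        (fl_cont' hv continuous_snd continuous_fst).continuousAt.eventually ((oG ρ).mem_nhds (h1 s hs))
    filter_upwards [a1, (fl_cont' hv continuous_const continuous_id).continuousAt.eventually
      ((oF.pathComponentIn y).mem_nhds h2.symm)] with z' a b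
    exact ⟨t, a, JoinedIn.symm b⟩
  obtain ⟨Z, hZ, ZP, Zn⟩ : ∃ Z : Set Y, IsCompact Z ∧ Z ⊆ PP Φ M ∩ G ρ ∧
      ((PP Φ M ∩ G (ρ / 2)).Nonempty → Z.Nonempty) ∧
      ∀ z ∈ PP Φ M, z ∈ S.B (ρ / 2) → z ∉ G (ρ / 2) → z ∈ Z := by
    have c0 : IsCompact ((S.B (ρ / 2) \ G (ρ / 2)) ∩ Φ ⁻¹' {1}) :=
      ((Hl33.pre_cpt S (by linarith)).diff (oG _)).inter_right
        (isClosed_singleton.preimage hB.smΦ.continuous)
    have s0 : (S.B (ρ / 2) \ G (ρ / 2)) ∩ Φ ⁻¹' {1} ⊆ PP Φ M ∩ G ρ := fun z hz =>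
      ⟨⟨hz.2, fun e => hz.1.2 (subset_of_mem_nhdsSet (MG _ (by linarith)) e)⟩, hz.1.1.1,
        by linarith [hz.1.1.2.1], by linarith [hz.1.1.2.2]⟩
    rcases (PP Φ M ∩ G (ρ / 2)).eq_empty_or_nonempty with e | ⟨z, hz⟩
    · exact ⟨_, c0, s0, fun k => (k.ne_empty e).elim, fun z a b c => ⟨⟨b, c⟩, a.1⟩⟩
    · exact ⟨_, c0.insert z, insert_subset ⟨hz.1, hz.2.1, by linarith [hz.2.2.1],
        by linarith [hz.2.2.2]⟩ s0, fun _ => insert_nonempty _ _, fun z a b c => .inr ⟨⟨b, c⟩, a.1⟩⟩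
  choose! g hg using Ja
  obtain ⟨T, hT, hcov⟩ := hZ.elim_nhds_subcover (fun z => {z' | J z' (g z)}) fun z hz =>
    (Jc _).mem_nhds (hg z (ZP hz).1 (ZP hz).2)
  have ZJ : ∀ z ∈ Z, ∃ q ∈ g '' T, J z q := fun z hz => by
    obtain ⟨x, a, b⟩ := mem_iUnion₂.1 (hcov hz)
    exact ⟨_, ⟨x, a, rfl⟩, b⟩
  have PJ : ∀ z ∈ PP Φ M, z ∈ G (ρ / 2) → ∃ q ∈ g '' T, J z q := by
    intro z hz hG
    rcases hP.subset_or_subset (u := (⋃ q ∈ g '' T, {z | J z q}) ∪ (S.B (ρ / 2))ᶜ)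
      (v := G (ρ / 2) ∩ ⋃ y ∈ {y | ∀ q ∈ g '' T, ¬ JoinedIn F y q}, {z | J z y})
      ((isOpen_biUnion fun q _ => Jc q).union
        (Hl33.pre_cpt S (by linarith)).isClosed.isOpen_compl)
      ((oG _).inter (isOpen_biUnion fun q _ => Jc q)) (disjoint_left.2 fun x a b => by
        obtain ⟨y, b1, b2⟩ := mem_iUnion₂.1 b.2
        obtain ⟨q, a1, a2⟩ := mem_iUnion₂.1 (a.resolve_right fun e => e (GB _ b.1))
        exact b1 q a1 (Jb x y q b2 a2)) (fun x hx => by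
        by_cases a : x ∈ S.B (ρ / 2)
        swap
        · exact .inl (.inr a)
        by_cases b : x ∈ G (ρ / 2)
        swap
        · obtain ⟨q, c1, c2⟩ := ZJ x (Zn.2 x hx a b)
          exact .inl (.inl (mem_biUnion c1 c2))
        have c := hg x hx ⟨b.1, by linarith [b.2.1], by linarith [b.2.2]⟩
        by_cases d : ∀ q ∈ g '' T, ¬ JoinedIn F (g x) q
        · exact .inr ⟨b, mem_biUnion (show g x ∈ {y | ∀ q ∈ g '' T, ¬ JoinedIn F y q} from d) c⟩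
        · push Not at d
          obtain ⟨q, d1, d2⟩ := d
          obtain ⟨t, c1, c2⟩ := c
          exact .inl (.inl (mem_biUnion d1 ⟨t, c1, c2.trans d2⟩))) with k | k
    · obtain ⟨q, a1, a2⟩ := mem_iUnion₂.1 ((k hz).resolve_right fun e => e (GB _ hG))
      exact ⟨q, a1, a2⟩
    · obtain ⟨x, hx⟩ := Zn.1 ⟨z, hz, hG⟩
      obtain ⟨q, a1, a2⟩ := ZJ x hx
      obtain ⟨y, b1, b2⟩ := mem_iUnion₂.1 (k (ZP hx).1).2
      exact (b1 q a1 (Jb x y q b2 a2)).elim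
  have FW : F ⊆ {y | y ∈ S.O ∧ y ∈ W ∧ 0 < S.tp y ∧ S.tm y < 0} := fun y hy =>
    ⟨hy.1, interior_subset (hs (GB ρ ⟨hy.1, hy.2.1.2, hy.2.2.2⟩)).1, hy.2.1.1, neg_pos.1 hy.2.2.1⟩
  obtain ⟨η, hη, sl⟩ := Hl33.slabStmt Y o v Φ M hB (G (ρ / 2)) (MG _ (by linarith)) (G (ρ / 4))
    (MG _ (by linarith)) (by
      rw [(oG _).interior_eq]
      exact (closure_minimal (GB _) (Hl33.pre_cpt S (by linarith)).isClosed).trans fun y hy =>
        ⟨hy.1, by linarith [hy.2.1], by linarith [hy.2.2]⟩)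
  refine ⟨G (ρ / 4) ∩ {y | 1 - η < (Φ y : ℂ).re}, inter_mem (MG _ (by linarith))
    ((isOpen_lt continuous_const (Complex.continuous_re.comp cΦ)).mem_nhdsSet.2 fun y hy => by
      show 1 - η < (Φ y : ℂ).re
      rw [hB.one y hy]; simpa using hη), g '' T, (T.finite_toSet.image g).isCompact,
    ?_, fun y hy h1 h2 => ?_⟩
  · rintro _ ⟨z, hz, rfl⟩
    obtain ⟨t, -, a⟩ := hg z (ZP (hT z hz)).1 (ZP (hT z hz)).2
    exact FW a.target_mem
  obtain ⟨τ, hτ, s, a1, a2, a3⟩ : ∃ τ : ℝ, (τ = 1 ∨ τ = -1) ∧ ∃ s ≥ 0, fl v (τ * s) y ∈ PP Φ M ∧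
      ∀ t ∈ Icc 0 s, fl v (τ * t) y ∈ G (ρ / 2) := by
    rcases le_total (ar (Φ y)) 0 with e | e
    · exact ⟨1, .inl rfl, up.foot hB (fun z hz => ⟨hz.1, by linarith [hz.2.1], by linarith [hz.2.2]⟩)
        (sl y hy.1) (le_of_lt hy.2) h1 (by linarith)⟩
    · exact ⟨-1, .inr rfl, dn.foot hB (fun z hz => ⟨hz.1, by linarith [hz.2.2], by linarith [hz.2.1]⟩)
        (sl y hy.1) (le_of_lt hy.2) (neg_pos.2 h2) (by linarith)⟩
  obtain ⟨q, b1, b2⟩ := PJ _ a2 (a3 s (right_mem_Icc.2 a1))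
  refine ⟨q, b1, (Jb _ y q ⟨-(τ * s), fun t ht => ?_, ?_⟩ b2).mono FW⟩
  · obtain ⟨t', c1, c2⟩ := uIcc_sg hτ a1 (t := t + τ * s) (by
      rcases mem_uIcc.1 ht with c | c
      · exact mem_uIcc.2 (.inr ⟨by linarith [c.1], by linarith [c.2]⟩)
      · exact mem_uIcc.2 (.inl ⟨by linarith [c.1], by linarith [c.2]⟩))
    rw [← fl_add hv, c2]
    exact ⟨(a3 t' c1).1, by linarith [(a3 t' c1).2.1], by linarith [(a3 t' c1).2.2]⟩
  · rw [fl_neg hv]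
    exact JoinedIn.refl ⟨hy.1.1, ⟨h1, by linarith [hy.1.2.1]⟩, neg_pos.2 h2, by linarith [hy.1.2.2]⟩

/-- the stage which does not cut -/
def idle (S : Pre v M M') : Pre v M M :=
  { S with
    φ := fun _ => 1
    sφ := contMDiffOn_const
    φv := fun y _ => by rw [rt, dl_const]; exact le_rfl
    φs := fun _ a b => (b a).elim
    meq' := fun _ => ⟨fun a => ⟨a, rfl⟩, fun a => a.1⟩ }

theorem idle_cd (S : Pre v M M') (hS : S.Cd true) (hB : Bas o v Φ M)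
    (hP : IsPreconnected (PP Φ M)) : (idle S).Cd true := by
  intro W hW
  obtain ⟨W₁, h1, D, Q₁, c1, q1, j1⟩ := hS W hW
  obtain ⟨W₂, h2, Q₂, c2, q2, j2⟩ := free_jn S hB hP hW
  refine ⟨W₁ ∩ W₂, inter_mem h1 h2, 0, Q₁ ∪ Q₂, c1.union c2,
    fun y hy => hy.elim (q1 y) (fun a => q2 a), fun q hq hq' => ?_⟩
  obtain ⟨a1, a2, a3⟩ := hq
  obtain ⟨n, hn⟩ := exists_nat_gt (|D| + π)
  have b1 := abs_le.1 (abs_ar_le (S.φ q.1))
  have b2 := mul_le_mul_of_nonneg_left (show 1 ≤ 2 * π by linarith [two_le_pi])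
    (Nat.cast_nonneg (α := ℝ) n)
  have b3 := le_abs_self D
  have b4 := abs_nonneg D
  have mp : Continuous fun x : Y × ℝ => (x.1, q.2) := by fun_prop
  rcases a3 with a3 | a3 | a3
  · obtain ⟨q', k1, k2⟩ := j1 (q.1, ar (S.φ q.1) - n * (2 * π)) ⟨a1,
      ((Circle.periodic_exp.nat_mul n).sub_eq _ |>.trans (exp_ar _)).symm,
      .inl ⟨a3.1, by linarith⟩⟩ hq'.1
    refine ⟨(q'.1, q.2), .inl k1, (k2.map mp).mono ?_⟩
    rintro _ ⟨x, ⟨⟨x1, -, x2⟩, x3, x4⟩, rfl⟩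
    have := abs_le.1 x4
    exact ⟨⟨x1, a2, .inl ⟨x2.elim (·.1) fun e => e.elim (fun e => by linarith [e.2]) (·.1), a3.2⟩⟩,
      x3, by simp⟩
  · obtain ⟨q', k1, k2⟩ := j1 (q.1, ar (S.φ q.1) + n * (2 * π)) ⟨a1,
      ((Circle.periodic_exp.nat_mul n _).trans (exp_ar _)).symm, .inr (.inl ⟨a3.1, by linarith⟩)⟩ hq'.1
    refine ⟨(q'.1, q.2), .inl k1, (k2.map mp).mono ?_⟩
    rintro _ ⟨x, ⟨⟨x1, -, x2⟩, x3, x4⟩, rfl⟩
    have := abs_le.1 x4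
    exact ⟨⟨x1, a2, .inr (.inl ⟨x2.elim (fun e => by linarith [e.2]) fun e => e.elim (·.1) (·.2),
      a3.2⟩)⟩, x3, by simp⟩
  · obtain ⟨q', k1, k2⟩ := j2 q.1 hq'.2 a3.1 a3.2
    refine ⟨(q', q.2), .inr k1, (k2.map (f := fun y => (y, q.2)) (by fun_prop)).mono ?_⟩
    rintro _ ⟨x, hx, rfl⟩
    exact ⟨⟨hx.1, a2, .inr (.inr hx.2.2)⟩, hx.2.1, by simp⟩

/-- the idle stage of the empty plateau -/
def idle0 (v : Vf Y) : Pre v ∅ ∅ where
  O := ∅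
  tp := 0
  tm := 0
  r := 1
  φ := fun _ => 1
  op := isOpen_empty
  sp := contMDiffOn_const
  sm := contMDiffOn_const
  p0 := fun _ a => a.elim
  m0 := fun _ a => a.elim
  pv := fun _ a => a.elim
  mv := fun _ a => a.elim
  ly := fun _ a => a.elim
  meq := fun _ => ⟨fun a => a.elim, fun a => a.1⟩
  rpos := one_pos
  cpt := by simp
  sφ := contMDiffOn_const
  φv := fun _ a => a.elim
  φs := fun _ a => a.elim
  meq' := fun _ => ⟨fun a => a.elim, fun a => a.1⟩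

theorem exists_idle {n : ℕ} (h : Hi v true n M) (hB : Bas o v Φ M) (hP : IsPreconnected (PP Φ M)) :
    ∃ S : Pre v M M, S.Cd true ∧ ∀ y, S.φ y = 1 := by
  cases n with
  | zero =>
    obtain rfl : M = ∅ := h
    exact ⟨idle0 v, fun W _ => ⟨W, ‹_›, 0, ∅, isCompact_empty, fun _ a => a.elim,
      fun _ a => a.1.elim⟩, fun _ => rfl⟩
  | succ n =>
    obtain ⟨M', S, hS, -⟩ := h
    exact ⟨idle S, idle_cd S hS hB hP, fun _ => rfl⟩

end Crest.Agent.X212.Hm4
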